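import Vale.Agent.P287D.Cl.Fr
import Vale.Agent.P287D.Br.St
import Vale.Agent.P287D.Nc.St
import Vale.Agent.P287D.Ba.Cn
import Vale.Agent.P287D.Ba.Bar
import Vale.Agent.P287D.Sf.Df
import Vale.Agent.P287D.Sh.St
import Vale.Agent.P287Q.D.St

/-!
# P287D, the K3 end: statements
-/

set_option linter.unusedVariables false

open Set Module
open Vale.Agent.P287Q Vale.Agent.P277Z Vale.Agent.P291Z
open Vale.Agent.P287Q.Zc (Lk)
open Vale.Agent.P287D.Sf (dg)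
open Vale.Agent.P287D.Br (Vm)
open scoped ContDiff Manifold

noncomputable section

namespace Vale.Agent.P287D.K3

section upper

variable {L : Type} [Field L] [Algebra ℂ L]

/-- type S without the last two clauses -/
structure PreS (d : ℕ) (H : BD L) (f : L) : Prop where
  ff : FF L 2
  car : H ∈ CarZ L
  smp : Smp H
  deg : (d : ℝ) ≤ I2 H H
  ne : f ≠ 0
  on : ∀ P, On 1 H P → (cn L 2 + dv f) P = 0
  exc : ∀ P, ¬ On 1 H P → 1 ≤ (cn L 2 + dv f) P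
  crv : ∀ P, On 1 H P → ∃ (m : ℕ) (β : BD L), 0 < m ∧ β ∈ CarZ L ∧ Hull 1 H P.δ β ∧
    ∀ γ ∈ Car L, I2 β γ = m * I2 H γ

/-- the numerical data on a smooth model `V Λ` with the canonical class `Γ` -/
structure UD (d : ℕ) (Λ Γ : BD L) (f : L) (H : BD L) : Prop where
  ff : FF L 2
  term : Term 1 Λ Γ
  can : Γ ∈ CarZ L
  exc : ∀ P, ¬ On 1 Λ P → 1 ≤ dsc 2 Γ P
  ne : f ≠ 0
  eff : 0 ≤ Γ + dv f
  car : H ∈ CarZ L
  des : Dsc Λ H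
  deg : (d : ℝ) ≤ I2 H H
  pos : 0 < I2 H H
  nn : ∀ P, 0 ≤ dg H P
  nul : ∀ P, On 1 Λ P → (dg H P = 0 ↔ (Γ + dv f) P ≠ 0)
  crv : ∀ P, 0 < dg H P → ∃ (m : ℕ) (β : BD L), 0 < m ∧ β ∈ CarZ L ∧ Dsc Λ β ∧
    (∀ Q, 0 < dg H Q → β Q = P.δ Q) ∧ ∀ Q, dg β Q = m * dg H Q

end upper

/-- **UP**: the class `H` is semiample, and its model has the required properties -/
def UP : Prop := ∀ (d : ℕ) (L : Type) [Field L] [Algebra ℂ L] (Λ Γ : BD L) (f : L) (H : BD L),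
  UD d Λ Γ f H → PreS d H f

/-- **PG2**: a class of type `(2, 0)` gives a section of the canonical bundle -/
def PG2 : Prop := ∀ (X : Type) [MetricSpace X] [CompactSpace X] [ConnectedSpace X]
  [ChartedSpace (Fin 2 → ℂ) X] [IsManifold 𝓘(ℂ, Fin 2 → ℂ) ω X] (I : H X →ₗ[ℂ] ℂ)
  (B : LinearMap.BilinForm ℤ (Lk X 2)), Sf.Top I B → ∀ w : H X, w ≠ 0 → Mf.IsHg 2 2 0 w →
  ∃ η ∈ (D.SB.K X).Γ, η ≠ 0

/-- **NOE**: the Noether inequality -/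
def NOE : Prop := ∀ (X : Type) [MetricSpace X] [CompactSpace X] [ConnectedSpace X]
  [ChartedSpace (Fin 2 → ℂ) X] [IsManifold 𝓘(ℂ, Fin 2 → ℂ) ω X] (I : H X →ₗ[ℂ] ℂ)
  (B : LinearMap.BilinForm ℤ (Lk X 2)), Sf.Top I B → ∀ w : H X, w ≠ 0 → Mf.IsHg 2 2 0 w →
  (∀ c, Mf.IsHg 2 2 0 c → ∃ t : ℂ, c = t • w) →
  ∀ c, D.IsC1 (D.SB.K X).φ c → (finrank ℤ (Lk X 2) : ℝ) + (I (c * c)).re ≤ 22

/-- **FRM**: the canonical bundle of a model which is a compact manifold -/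
def FRM : Prop := ∀ (L : Type) [Field L] [Algebra ℂ L] (M : Mdl 2 0 L) (hF : M.F = univ),
  M.Proj → (∀ η ∈ (D.SB.K M.W).Γ, η ≠ 0 → ∃ f, f ≠ 0 ∧ 0 ≤ Ba.KM M + M.div f) ∧
    ∀ u : C(M.W, M.F), (∀ x, (u x : M.W) = x) →
      D.IsC1 (D.SB.K M.W).φ (H.map u (Cl.cl M (Ba.KM M)))

section var

variable {n : ℕ} {K : Type} [Field K] [Algebra ℂ K] {V : Var n}

/-- `u` is the map of spaces given by the model -/
def Um (a : Vm V K) (u : C(V.X, a.M.F)) : Prop := ∀ y (h : y ∈ V.A), u (V.pt ⟨y, h⟩) = a.pt y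

end var

/-- **CAN**: the canonical class of a surface -/
def CAN : Prop := ∀ (Z : Var 2) (L : Type) [Field L] [Algebra ℂ L] (a : Vm Z L) (w : H Z.X),
  w ≠ 0 → w ∈ Z.Hg 2 0 → (∃ f, f ≠ 0 ∧ 0 ≤ Ba.KM a.M + a.M.div f) ∧
    (Z.Hg 2 0 = ℂ ∙ w → ∀ u, Um a u → (finrank ℤ (Lk Z.X 2) : ℝ) +
      (Z.int (H.map u (Cl.cl a.M (Ba.KM a.M)) * H.map u (Cl.cl a.M (Ba.KM a.M)))).re ≤ 22)

/-- the generator `h` and the divisor `D` in the class `t h` -/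
structure KS (d : ℕ) {Z : Var 2} {L : Type} [Field L] [Algebra ℂ L] (a : Vm Z L)
    (cl : P277Z.Div L → H Z.X) (D : P277Z.Div L) (h : H Z.X) (t : ℤ) : Prop where
  dv : a.M.Dv D
  int : IsInt D
  mem : h ∈ Lk Z.X 2
  ne : t ≠ 0
  cls : cl D = (t : ℂ) • h
  sq : Z.int (h * h) = d
  dvd : ∀ x ∈ Lk Z.X 2, x ∈ Z.Hg 1 1 → ∃ k : ℤ, Z.int (x * h) = k * d
  prim : ∀ c : ℂ, c • h ∈ Lk Z.X 2 → ∃ k : ℤ, c = k
  num : ∀ E, a.M.Dv E → IsInt E →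
    (∀ G, a.M.Dv G → IsInt G → I2 (Ba.bar a.M E) (Ba.bar a.M G) = 0) → cl E = 0

/-- **TK**: the numerical data of a surface of the class -/
def TK : Prop := ∀ d : ℕ, 0 < d → ∀ (Z : Var 2) (L : Type) [Field L] [Algebra ℂ L] (a : Vm Z L)
  (u : C(Z.X, a.M.F)), Um a u → Br.Cls a (fun D => H.map u (Cl.cl a.M D)) → Nc.KT d Z →
  ∃ (Λ Γ : BD L) (f : L) (D : P277Z.Div L) (h : H Z.X) (t : ℤ),
    UD d Λ Γ f (Ba.bar a.M D) ∧ KS d a (fun D => H.map u (Cl.cl a.M D)) D h t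

end Vale.Agent.P287D.K3
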