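import Vale.Agent.P287D.K3.Frm
import Vale.Agent.P287D.Cl.Um
import Vale.Agent.P287Q.Sf.Top
import Vale.Agent.P287Q.Int.All

/-!
# P287D, the K3 end: the canonical class of a surface
-/

set_option linter.all false

open Set Filter Topology Module
open Vale.Agent.P277Z Vale.Agent.P291Z Vale.Agent.P269 Vale.Agent.P287Q Vale.Agent.P287D.Cl
open Vale.Agent.P269.Holo (HolOn ev_sub)
open Vale.Agent.P269.Tq (fnd mk_surj)
open Vale.Agent.P287Q.Zc (Lk)
open Vale.Agent.P287D.Br (Vm)

noncomputable section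

namespace Vale.Agent.P287D.K3

attribute [local instance] cptF niceF

theorem int_homeo {X Y : Type} [TopologicalSpace X] [Nice X] [CompactSpace X] [TopologicalSpace Y]
    [Nice Y] [CompactSpace Y] (e : X ≃ₜ Y) (β : BM X) (c : H Y) :
    Loc.intg β (H.map (e : C(X, Y)) c) = Loc.intg (P291Z.res e.symm β) c := by
  obtain ⟨b, h1, rfl⟩ := hcls_surj c
  have h2 := cocycle_pull e.continuous h1
  rw [H.map_hcls _ h1, ContinuousMap.coe_coe, Loc.intg_hcls _ h2, Loc.intg_hcls _ h1,
    ← Orb.ev_res e.symm.isOpenEmbedding _ ⟨(isClosed_supp _).isCompact, h2⟩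
      (by rw [Homeomorph.range_coe]; exact subset_univ _), pull_pull, Homeomorph.self_comp_symm,
    pull_id]

theorem map_symm {X Y : Type} [TopologicalSpace X] [TopologicalSpace Y] (e : X ≃ₜ Y) (c : H X) :
    H.map (e : C(X, Y)) (H.map (e.symm : C(Y, X)) c) = c :=
  (H.map_map _ _ _).trans (H.map_id e.symm_apply_apply c)

variable {n : ℕ} {K : Type} [Field K] [Algebra ℂ K] {V : Var n} (a : Vm V K)

/-- the compact set of the model is the manifold -/
def gw : a.M.F ≃ₜ a.M.W := (Homeomorph.setCongr a.all).trans (Homeomorph.Set.univ _)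

/-- the variety is the manifold of the model -/
def hw : V.X ≃ₜ a.M.W := (hm a).trans (gw a)

theorem hw_pt (y : V.A) : hw a (V.pt y) = a.q y := congrArg Subtype.val (hm_pt a y)

theorem hol_hw : letI := Mf.cs (n := n) V.qm.dim
    Mf.Hol n n (hw a) ∧ Mf.Hol n n (hw a).symm := by
  letI := Mf.cs (n := n) V.qm.dim
  refine ⟨⟨(hw a).continuous, mk_surj.forall.2 fun y => ?_⟩,
    ⟨(hw a).symm.continuous, (hw a).surjective.forall.2 (mk_surj.forall.2 fun y => ?_)⟩⟩
  · obtain ⟨σ, h1, h2, h3⟩ := (Mf.pres (n := n) V.qm.dim).sec y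
    obtain ⟨Φ, p, q⟩ := HolOn.pi fun j =>
      (a.hol y y.2 _).1 (Lb.hol_crd (Lo.at_chartAt (n := n) (a.q y)) j)
    refine (p.comp_of_eq h1 h2).congr ?_
    filter_upwards [chart_target_mem_nhds (Fin n → ℂ) (V.pt y),
      (Mf.tendsto_symm (n := n) (V.pt y)).eventually h3,
      (h2 ▸ h1.continuousAt.tendsto).eventually q] with z b ⟨d, e⟩ s
    simp only [OpenPartialHomeomorph.right_inv _ b] at d e
    rw [← e, hw_pt, hw_pt]
    exact (s d).symm
  · obtain ⟨r, h4, h5⟩ := (Mf.pres (n := n) V.qm.dim).prj y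
    rw [Homeomorph.symm_apply_apply, hw_pt]
    refine analyticAt_pi_iff.2 fun j => (a.hol y y.2
      fun w => chartAt (Fin n → ℂ) (V.pt y) ((hw a).symm w) j).2
      ⟨fun w => r w j, analyticAt_pi_iff.1 h4 j, (ev_sub y.2).1 (h5.mono fun z b => ?_)⟩ _
      (Lo.at_chartAt _)
    exact congrFun ((congrArg _ ((hw a).symm_apply_eq.2 (hw_pt a z).symm)).trans b.symm) j

/-- the Hodge types in the charts of the model -/
theorem hg_iff {p q : ℕ} {c : H a.M.W} :
    H.map (hw a : C(V.X, a.M.W)) c ∈ V.Hg p q ↔ Mf.IsHg n p q c := by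
  letI := Mf.cs (n := n) V.qm.dim
  refine (Mf.pres (n := n) V.qm.dim).mem_HN.trans ⟨fun h => ?_, fun h =>
    h.map (f := (hw a : C(V.X, a.M.W))) (hol_hw a).1⟩
  exact map_symm (hw a).symm c ▸ h.map (f := ((hw a).symm : C(a.M.W, V.X))) (hol_hw a).2

/-- the fundamental class of the manifold of the model -/
def fw : BM a.M.W := P291Z.res (gw a).symm (P291Z.res (hm a).symm (fnd (scl V.π) V.A))

theorem int_hw (c : H a.M.W) : haveI := cptW a.all
    V.int (H.map (hw a : C(V.X, a.M.W)) c) = Loc.intg (fw a) c := by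
  have := cptW a.all
  have := niceW a.all
  rw [fw, ← int_homeo, ← int_map, H.map_map]
  rfl

theorem val_fw (x : a.M.W) : Orb.Val (fw a) (Mf.cch n x) 1 := by
  have hs := mem_chart_source (Fin n → ℂ) x
  have ac := Lo.at_chartAt (n := n) x
  unfold Mf.cch
  generalize chartAt (Fin n → ℂ) x = c at hs ac
  have t0 : Tendsto (fun z => z + c x) (𝓝 0) (𝓝 (c x)) :=
    (continuous_add_const _).tendsto' _ _ (zero_add _)
  have t1 := t0.eventually_mem (c.open_target.mem_nhds (c.map_source hs))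
  have e0 : c.symm (0 + c x) = x := by rw [zero_add, c.left_inv hs]
  have t2 : ∀ᶠ z in 𝓝 0, ContinuousAt (fun z => c.symm (z + c x)) z := t1.mono fun z b =>
    ContinuousAt.comp (g := c.symm) (c.continuousAt_symm b) (continuous_add_const _).continuousAt
  refine Orb.Val.res (gw a).symm.isOpenEmbedding t2.self_of_nhds ((fd_var a).2 _
    (fun w => c w - c x) ⟨t2.mono fun z b => (gw a).symm.continuous.continuousAt.comp b,
      fun f hf => ?_, fun j => ?_, t1.mono fun z b => ?_, ?_⟩)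
  · change Hol n f (c.symm (0 + c x)) at hf
    rw [e0] at hf
    exact (hf c ac).comp_of_eq (analyticAt_id.add analyticAt_const) (zero_add _)
  · change Hol n _ (c.symm (0 + c x))
    rw [e0]
    exact fun e he => (Lb.hol_crd ac j e he).sub analyticAt_const
  · exact (congrArg (· - c x) (c.right_inv b)).trans (add_sub_cancel_right _ _)
  · filter_upwards [continuousAt_subtype_val.eventually_mem (c.open_source.mem_nhds
      (show c.symm (0 + c x) ∈ _ from e0.symm ▸ hs))] with w b
    exact Subtype.ext ((congrArg c.symm (sub_add_cancel _ _)).trans (c.left_inv b))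

theorem cnW : ConnectedSpace a.M.W := (hw a).surjective.connectedSpace (hw a).continuous

theorem top_fw {Z : Var 2} (a : Vm Z K) : haveI := cptW a.all
    ∃ B, Sf.Top (Loc.intg (fw a)) B := by
  have := cptW a.all
  have := niceW a.all
  have := cnW a
  refine (Sf.exists_top Zc.stLat (fw a) (((Zc.oriZ_qm Z.qm).res (hm a).symm.isOpenEmbedding).res
    (gw a).symm.isOpenEmbedding) fun x b h1 h2 h3 => ?_).imp fun _ => And.right
  refine (one_mul _).symm.trans (val_fw a x b 1 h1 ?_ h3)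
  rwa [Mf.cch, zero_add, OpenPartialHomeomorph.left_inv _ (mem_chart_source _ x)]

theorem rank_le {X Y : Type} [TopologicalSpace X] [TopologicalSpace Y] (e : X ≃ₜ Y) (k : ℤ)
    [Module.Finite ℤ (Lk Y k)] : finrank ℤ (Lk X k) ≤ finrank ℤ (Lk Y k) := by
  let f : Lk X k →+ Lk Y k := AddMonoidHom.mk' (fun x => ⟨H.map (e.symm : C(Y, X)) x.1,
    Zc.mem_Lk.2 ⟨Zc.Lam.map _ x.2.1, (Zc.mem_Lk.1 x.2).2.map _⟩⟩)
    fun x y => Subtype.ext (map_add _ _ _)
  exact LinearMap.finrank_le_finrank_of_injective (f := f.toIntLinearMap) fun x y h =>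
    Subtype.ext ((H.map_bijective_of_homeomorph e.symm).1 (congrArg Subtype.val h))

/-- **CAN** -/
theorem can_of (h1 : PG2) (h2 : NOE) (h3 : FRM) : CAN := by
  intro Z L _ _ a w h0 hw'
  have := cptW a.all
  have := niceW a.all
  have := cnW a
  obtain ⟨B, T⟩ := top_fw a
  obtain ⟨w, rfl⟩ := (H.map_bijective_of_homeomorph (hw a)).2 w
  have w0 : w ≠ 0 := fun e => h0 (by rw [e, map_zero])
  have w1 := (hg_iff a).1 hw'
  obtain ⟨f1, f2⟩ := h3 L a.M a.all a.proj
  letI := TopologicalSpace.metrizableSpaceMetric a.M.W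
  refine ⟨(h1 _ _ B T w w0 w1).elim fun η k => f1 η k.1 k.2, fun e u hu => ?_⟩
  have k := h2 _ _ B T w w0 w1 (fun c hc => ?_) _ (f2 (gw a).symm fun _ => rfl)
  · have := T.fin
    have r := Nat.cast_le (α := ℝ).2 (rank_le (hw a) 2)
    rw [← int_hw, map_mul, H.map_map, um_eq a
      (u := ((gw a).symm : C(a.M.W, a.M.F)).comp (hw a : C(Z.X, a.M.W))) fun y h =>
        Subtype.ext (hw_pt a ⟨y, h⟩), ← um_eq a hu] at k
    linarith
  · obtain ⟨t, ht⟩ := Submodule.mem_span_singleton.1 (e ▸ (hg_iff a).2 hc)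
    exact ⟨t, (H.map_bijective_of_homeomorph (hw a)).1 (ht.symm.trans (H.map_smulC _ _ _).symm)⟩

theorem can_of' (h1 : PG2) (h2 : NOE) : CAN := can_of h1 h2 frm

end Vale.Agent.P287D.K3
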