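import Vale.Agent.P287D.K3.St
import Vale.Agent.P287Q.D.Barg
import Vale.Agent.P287Q.D.Brg
import Vale.Agent.P287Q.D.Cmp
import Vale.Agent.P287Q.Sf.All

/-!
# P287D, the K3 end: holomorphic two-forms and the Noether inequality
-/

set_option linter.unusedSectionVars false

namespace Vale.Agent.P287D.K3

open Set Function Module P291Z P267.FL P267.BlockC P267.RR P269 P287Q
open P287Q.Zc (Lk)
open scoped ContDiff Manifold

section aux

variable {X : Type} [MetricSpace X] [CompactSpace X] [ConnectedSpace X] [ChartedSpace C2 X]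
  [IsManifold 𝓘(ℂ, C2) ω X] {I : H X →ₗ[ℂ] ℂ} {B : LinearMap.BilinForm ℤ (Lk X 2)}

/-- A form that pairs to zero with all closed forms represents the class zero. -/
theorem noe_zero (T : Sf.Top I B) {F : TwoF X} {c : H X} (h : Sf.Rp F c)
    (h0 : ∀ G, Sf.SC G → pair F G = 0) : c = 0 :=
  D.cmp_nd T h.isDeg fun y hy => by
    obtain ⟨G, hG⟩ := (D.api X).ex y hy.2
    rw [D.cmp_pair T hG h, P267.BlockC.pair_comm, h0 G hG.1]

/-- The form of a class of type `(2, 0)`. -/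
theorem noe_form (T : Sf.Top I B) {w : H X} (h0 : w ≠ 0) (hw : Mf.IsHg 2 2 0 w) :
    ∃ η : TwoF X, Sf.Hol2 η ∧ Sf.Rp η w ∧ η ≠ 0 := by
  obtain ⟨η, hη, hηw⟩ := ((D.hapi X).hg20 w).1 hw
  exact ⟨η, ⟨hη, hηw.1⟩, hηw, fun e => h0 (noe_zero T hηw fun G _ => by
    rw [e, Sf.pair_zero_left])⟩

/-- A basis of the lattice is linearly independent over the complex numbers. -/
theorem noe_ind (T : Sf.Top I B) {r : ℕ} (b : Basis (Fin r) ℤ (Lk X 2)) (t : Fin r → ℂ)
    (h : ∑ i, t i • (b i).1 = 0) : t = 0 := by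
  funext i
  obtain ⟨x, hx⟩ := T.uni.2 (b.coord i)
  have h2 : I (x.1 * ∑ i, t i • (b i).1) = 0 := by rw [h, mul_zero, map_zero]
  rw [Finset.mul_sum, map_sum, Finset.sum_eq_single i (fun j _ hj => by
    rw [mul_smul_comm, map_smul, ← T.pair, hx]
    simp [hj]) (by simp), mul_smul_comm, map_smul, ← T.pair, hx] at h2
  simpa using h2

end aux

/-- **PG2.** -/
theorem pg2 : PG2 := by
  intro X _ _ _ _ _ I B T w h0 hw
  obtain ⟨η, hη, -, hη0⟩ := noe_form T h0 hw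
  refine ⟨η.f20, fun x => ?_, fun h => hη0 (P267.H815.twoF_ext' (fun x => congrFun h x)
    (fun x => congrFun hη.1.1 x) fun x => congrFun hη.1.2 x)⟩
  have := (D.sec_K (κ := 1)).2 (Sf.Can.holAt hη x)
  rwa [zpow_one] at this

/-- **NOE.** -/
theorem noe : NOE := by
  intro X _ _ _ _ _ I B T w h0 hw hw1 c hc
  have := T.free
  have := T.fin
  have A := D.api X
  have FF := formFacts (curvThm X)
  obtain ⟨η, hη, hηw, hη0⟩ := noe_form T h0 hw
  have hpg : Sf.PG η := ⟨hη, hη0, fun G hG => by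
    obtain ⟨c, hc⟩ := Sf.cls X G hG.2
    obtain ⟨t, rfl⟩ := hw1 c (((D.hapi X).hg20 c).2 ⟨G, hG.1, hc⟩)
    refine ⟨t, sub_eq_zero.1 (Sf.eq_zero_of_exact FF A Sf.pos ⟨?_, ?_⟩
      (A.exact _ _ _ hc (A.smul t _ _ hηw)))⟩
    · simp [hη.1.1, hG.1.1]
    · simp [hη.1.2, hG.1.2]⟩
  let b := Module.finBasis ℤ (Lk X 2)
  choose F hF using fun i : Fin (finrank ℤ (Lk X 2)) => A.ex (b i).1 (b i).2.2
  obtain ⟨R⟩ := D.stRl X (D.SB.K X)
  have hN := Sf.noe_of Sf.pg (Sf.fro_of Sf.pg) η hpg _ F ⟨fun i => (hF i).1, fun t ht =>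
    noe_ind T b t (noe_zero T (A.sum _ t hF) fun G hG => FF.pair_of_exact ht hG.1 hG.2)⟩
    R.A R.isCanon
  have hR := D.barg X R.A _ _ c (D.SB.coc _) R.frs hc
  rw [one_smul] at hR
  rwa [← Sf.pair_ch1 FF, ← D.cmp_pair T hR hR] at hN

end Vale.Agent.P287D.K3
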