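import Vale.Agent.P287D.K3.Md
import Vale.Agent.P287D.Sr.Up

/-!
# P287D, the K3 end: from divisors on one model to b-divisors
-/

open Vale.Agent.P277Z
open Vale.Agent.P287D.I (i2 i2_apply)
open Vale.Agent.P287D.Sf (dg)
open Vale.Agent.P287D.Ba

noncomputable section

namespace Vale.Agent.P287D.K3

variable {L : Type} [Field L] [Algebra ℂ L] {M : Mdl 2 0 L}

theorem dg_bar (hM : M.Proj) (P : Pl L) (D : P277Z.Div L) :
    dg (bar M D) P = i2 M (Finsupp.single P.toPlace 1) D := by
  have h := I_place hM P ![D]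
  rw [show (fun i => res P (bar M (![D] i))) = ![res P (bar M D)] from
    funext (Fin.cases rfl fun i => i.elim0)] at h
  exact h

theorem dg_bar_off (hM : M.Proj) {P : Pl L} (h : ¬ M.Pr P.toPlace) (D : P277Z.Div L) :
    dg (bar M D) P = 0 := by
  have k := I_place_off hM h ![D]
  rwa [show (fun i => res P (bar M (![D] i))) = ![res P (bar M D)] from
    funext (Fin.cases rfl fun i => i.elim0)] at k

theorem udm : UDM := by
  intro d L _ _ M f D hM h
  obtain ⟨A, -, hA, -⟩ := exists_pol hM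
  have e : bar M (KM M) + dv f = bar M (KM M + M.div f) := by rw [map_add, bar_div hM]
  have p : ∀ P : Pl L, 0 < dg (bar M D) P → M.Pr P.toPlace ∧ (KM M + M.div f) P.toPlace = 0 :=
    fun P k => by
      have a : M.Pr P.toPlace := by_contra fun c => k.ne' (dg_bar_off hM c D)
      exact ⟨a, by_contra fun c => k.ne' ((dg_bar hM P D).trans ((h.nul _ a).2 c))⟩
  refine ⟨bar M A, bar M (KM M), ff_model hM, term_amp hM hA.amp, KM_carZ hM,
    fun P => dsc_off hM hA.amp, h.ne, e ▸ bar_nonneg hM h.eff, bar_carZ hM h.int,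
    dsc_bar hM hA.amp D, Sr.I2_bar hM D D ▸ h.deg, Sr.I2_bar hM D D ▸ h.pos, fun P => ?_,
    fun P k => ?_, fun P k => ?_⟩
  · by_cases c : M.Pr P.toPlace
    · exact dg_bar hM P D ▸ h.nn _ c
    · exact (dg_bar_off hM c D).ge
  · have a := (on_iff hM hA.amp).1 k
    rw [dg_bar hM, e, bar_pr hM a]
    exact h.nul _ a
  · obtain ⟨m, β, m0, -, b2, b3, b4⟩ := h.crv _ (p P k).1 (p P k).2
    refine ⟨m, bar M β, m0, bar_carZ hM b2, dsc_bar hM hA.amp β, fun Q q => ?_, fun Q => ?_⟩
    · rw [bar_pr hM (p Q q).1, b3 _ (p Q q).2]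
      by_cases c : Q = P
      · rw [c, Pl.δ_self, Finsupp.single_eq_same]
      · rw [Pl.δ_ne c, Finsupp.single_eq_of_ne fun z => c (pl_inj z)]
    · by_cases c : M.Pr Q.toPlace
      · rw [dg_bar hM, dg_bar hM, b4 _ c]
      · rw [dg_bar_off hM c, dg_bar_off hM c, mul_zero]

end Vale.Agent.P287D.K3
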