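import Vale.Agent.P287D.K3.Ta
import Vale.Agent.P287D.K3.Ud
import Vale.Agent.P287D.K3.Can
import Vale.Agent.P287D.K3.Noe
import Vale.Agent.P287D.Cl.Um
import Vale.Agent.P287D.Sr.Up
import Vale.Agent.P287Q.Top.HG
import Vale.Agent.P287Q.Int.All

/-!
# P287D, the K3 end: the numerical data of a surface of the class
-/

set_option linter.all false

open Set Module Function
open Vale.Agent.P287Q Vale.Agent.P277Z Vale.Agent.P291Z Vale.Agent.P277Z.F5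
open Vale.Agent.P287Q.Zc (Lk alg trn)
open Vale.Agent.P287D.I (i2)

noncomputable section

namespace Vale.Agent.P287D.K3

theorem lt_of {V : Type} [AddCommGroup V] [Module ℂ V] {J : LinearMap.BilinForm ℂ V}
    {Λ : Submodule ℤ V} {σ : V} {d : ℕ} (h : Nc.TD d J Λ σ) {B : LinearMap.BilinForm ℤ Λ}
    (hB : ∀ x y, (B x y : ℂ) = J x.1 y.1) (h1 : Bijective B) (h2 : ∀ x y, B x y = B y x) :
    Lt d B ((alg J Λ σ).comap Λ.subtype) ((trn J Λ σ).comap Λ.subtype) := by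
  obtain ⟨b, G, g1, g2⟩ := h
  refine ⟨h2, h1, fun k x hk hx => ⟨x.2, ?_⟩, fun x => ?_,
    b.map (Submodule.comapSubtypeEquivOfLe inf_le_left).symm, ?_⟩
  · have e : J σ (k • x.1) = 0 := hx.2
    rw [map_zsmul] at e
    exact (smul_eq_zero.1 e).resolve_left hk
  · simp only [trn, Submodule.mem_comap, Submodule.mem_inf, Submodule.mem_iInf,
      Submodule.restrictScalars_mem, LinearMap.mem_ker, Submodule.subtype_apply]
    exact ⟨fun k y hy => by exact_mod_cast (hB y x).trans (k.2 _ hy), fun k => ⟨x.2, fun y hy => by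
      rw [← hB ⟨y, hy.1⟩, k ⟨y, hy.1⟩ hy, Int.cast_zero]⟩⟩
  · rw [← g2]
    congr 2
    ext i j
    exact Int.cast_injective (α := ℂ) ((hB _ _).trans (g1 i j).symm)

theorem int_hg {Z : Var 2} {w x : H Z.X} (hw : w ∈ Z.Hg 2 0) (hx : x ∈ Z.Hg 1 1) :
    Z.int (w * x) = 0 := by
  have k := (hgv 2 Z).mul _ _ _ _ w ((Z.Hg_eq 2 0).le hw) x ((Z.Hg_eq 1 1).le hx)
  rw [(hgv 2 Z).out _ _ (.inr (.inr (.inl (show ((2 : ℕ) : ℤ) < _ by norm_num))))] at k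
  rw [show w * x = 0 from k, map_zero]

/-- **TK** -/
theorem tk_of (hC : CAN) (hU : UDM) : TK := by
  rintro d hd Z L _ _ a u hu hc ⟨-, w, w0, hw, hT⟩
  have wm : w ∈ Z.Hg 2 0 := hw ▸ Submodule.mem_span_singleton_self w
  obtain ⟨⟨f, f0, hf⟩, noe⟩ := hC Z L a w w0 wm
  have := Z.nice
  obtain ⟨l1, -, l2⟩ := Zc.stLat Z.X _ _ (Zc.oriZ_qm Z.qm)
  obtain ⟨B, b1, b2, b3⟩ := l2 2 rfl
  have := (l1 2).free
  have := (l1 2).fin
  replace b1 : ∀ x y, (B x y : ℂ) = Z.int (x.1 * y.1) := b1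
  have num : ∀ D E, Z.int (H.map u (Cl.cl a.M D) * H.map u (Cl.cl a.M E)) = i2 a.M D E :=
    fun D E => by simpa [List.ofFn_succ, I.i2_apply] using Cl.num_um a hu ![D, E]
  let c : Dg.Gd a.M →+ Lk Z.X 2 := AddMonoidHom.mk'
    (fun D => ⟨H.map u (Cl.cl a.M D), hc.int D D.2.2⟩) fun D E => Subtype.ext (hc.add _ _)
  obtain ⟨D, h, t, m, s⟩ := md a.proj hd (lt_of hT b1 b2 fun x y => (b3 even_two).eq x y) c
    (fun D => ⟨(c D).2, int_hg wm (hc.hg D)⟩)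
    (fun D E => by exact_mod_cast (b1 (c D) (c E)).trans (num D E)) f0 hf
    (by simpa [num] using noe hw u hu)
  obtain ⟨Λ, Γ, k⟩ := hU d L a.M f D a.proj m
  refine ⟨Λ, Γ, f, D, h, t, k, D.2.1, D.2.2, h.2, s.pos.ne', ?_, ?_, fun x h1 h2 => ?_,
    fun z hz => ?_, fun E h1 h2 h3 => congrArg Subtype.val (s.num ⟨E, h1, h2⟩ fun G => ?_)⟩
  · rw [Int.cast_smul_eq_zsmul]
    exact congrArg Subtype.val s.cls
  · rw [← b1, s.sq, Int.cast_natCast]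
  · obtain ⟨n, hn⟩ := s.dvd ⟨x, h1⟩ ⟨h1, int_hg wm h2⟩
    exact ⟨n, by rw [← b1 ⟨x, h1⟩, hn, Int.cast_mul, Int.cast_natCast]⟩
  · obtain ⟨x, hx⟩ := s.prim
    exact ⟨B x ⟨_, hz⟩, by rw [b1, mul_smul_comm, map_smul, ← b1, hx, Int.cast_one, smul_eq_mul,
      mul_one]⟩
  · rw [← Sr.I2_bar a.proj]
    exact h3 G G.2.1 G.2.2

theorem can : CAN := can_of' pg2 noe

theorem tk : TK := tk_of can udm

end Vale.Agent.P287D.K3
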