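import Vale.Agent.P287D.K3.Up
import Vale.Agent.P287D.Sf.Row
import Vale.Agent.P287D.Sf.Key
import Vale.Agent.P287D.Cl.Um
import Vale.Agent.P287D.Nc.Top
import Vale.Agent.P287D.Nc.Kb
import Vale.Agent.P287D.Api.Int
import Vale.Agent.P287D.K3.Tk
import Vale.Agent.P287D.Iv.Main

/-!
# P287D, the K3 end: the glue
-/

open Vale.Agent.P287Q

namespace Vale.Agent.P287D.K3

variable {L : Type} [Field L] [Algebra ℂ L] {d : ℕ} {H : BD L} {f : L}

/-- **UP**, with no hypothesis -/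
theorem up : UP :=
  up_of (fun _ _ _ hK _ hβ h => In.nef_two hK hβ h) Api.zar fun _ _ _ hL => Sf.rows hL

theorem PreS.ps (h : PreS d H f) (hd : 0 < d) : Sf.PS H f where
  smp := h.smp
  pos := lt_of_lt_of_le (by exact_mod_cast hd) h.deg
  on := h.on
  exc := h.exc
  crv P k :=
    let ⟨m, β, a, b, c, e⟩ := h.crv P k
    ⟨m, β, a, CarZ.car b, ((Sf.rows h.ff).det_dsc c.1 h.smp.car).2, c.2, e⟩

theorem PreS.isS (h : PreS d H f) (hd : 0 < d)
    (inv : ∀ L₀ : IntermediateField ℂ L, Module.finrank L₀ L = 2 → pg L₀ 2 ≠ 0) :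
    IsS d L H f :=
  ⟨h.ff, h.car, h.smp, h.deg, h.ne, h.on, h.exc, h.crv, fun _ k =>
    (h.ps hd).key (Sf.rows h.ff) ((Sf.rows h.ff).nn_nef k), inv⟩

/-- The data on every model of a surface of the class. -/
theorem TK.pre (hT : TK) (hd : 0 < d) {Z : Var 2} (a : Br.Vm Z L) (k : Nc.KT d Z) :
    ∃ (f : L) (D : P277Z.Div L) (h : P291Z.H Z.X) (t : ℤ),
      PreS d (Ba.bar a.M D) f ∧ KS d a (Cl.vcl a) D h t := by
  obtain ⟨u, hu⟩ := Cl.exists_um a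
  obtain ⟨Λ, Γ, f, D, h, t, h1, h2⟩ := hT d hd Z L a u hu (Cl.cls_um a hu) k
  refine ⟨f, D, h, t, up d L Λ Γ f _ h1, ?_⟩
  rwa [show (fun D => P291Z.H.map u (Cl.cl a.M D)) = Cl.vcl a from
    funext (Cl.vcl_um a hu)] at h2

/-- **INQ**: the quotient by an involution has a canonical form -/
def INQ : Prop := ∀ d, 3 ≤ d → ∀ (L : Type) [Field L] [Algebra ℂ L], Nc.SK d L →
  ∀ L₀ : IntermediateField ℂ L, Module.finrank L₀ L = 2 → pg L₀ 2 ≠ 0

/-- **K3E** -/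
theorem k3e_of (hT : TK) (hI : INQ) : Nc.K3E := ⟨3, fun d hd L _ _ s => by
  obtain ⟨Z, a, k⟩ := s.vm
  obtain ⟨f, D, -, -, h, -⟩ := hT.pre (by omega) a k
  exact ⟨_, f, h.isS (by omega) (hI d hd L s)⟩⟩

theorem inq : INQ := fun _ hd _ _ _ s =>
  Iv.inv_of (fun _ _ _ hL => Sf.rows hL) Api.pb tk up can hd s

/-- **K3E**, with no hypothesis -/
theorem k3e : Nc.K3E := k3e_of tk inq

end Vale.Agent.P287D.K3
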