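import Vale.Agent.P287D.K3.St
import Vale.Agent.P277Z.Lbd.All

/-!
# P287D, the K3 end: the canonical bundle of a model
-/

set_option linter.all false

open Set Filter Topology
open Vale.Agent.P272.K (Cm Chart At jacM)
open Vale.Agent.P285.H281.FD (Bd)
open Vale.Agent.P277Z Vale.Agent.P291Z Vale.Agent.P287Q Vale.Agent.P287Q.D Vale.Agent.P287D.Cl

noncomputable section

namespace Vale.Agent.P287D.K3

variable {n N : ℕ} {K : Type} [Field K] [Algebra ℂ K] {M : Mdl n N K} {D : P277Z.Div K}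

/-- the class of a line bundle with a meromorphic section -/
theorem map_rep {X : Type} [TopologicalSpace X] [Nice X] (hL : Loc M) (hD : IsInt D) {B : Bd M.W}
    {s : B.ι → M.W → ℂ} (R : M.Rep B D s) (i : M.F → B.ι) (hi : ∀ x : M.F, (x : M.W) ∈ B.U (i x))
    (u : C(X, M.F)) {φ : X → X → ℂ} {c : H X} (hc : IsC1 φ c)
    (hφ : ∀ x, ∀ᶠ y in 𝓝 x, φ x y = (B.g (i (u x)) (i (u y)) (u y))⁻¹) :
    c = H.map u (cl M D) := by
  choose t v t1 t2 v1 v2 v3 using fun x => R.loc x (i x) (hi x)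
  have ht : ∀ x, Le M D x (t x) := fun x => ⟨t1 x, t2 x⟩
  have k : ∀ p : M.F, ∀ᶠ q : M.F in 𝓝 p, (q : M.W) ∈ B.U (i p) ∧
      v p q = B.g (i p) (i q) q * (v q q * M.val (t q / t p) q) := fun p => by
    filter_upwards [continuousAt_subtype_val.eventually ((((R.lb.isOpen _).eventually_mem
      (hi p)).and (v1 p).near).and (gen_near (v3 p))), (ht p).near hL] with q ⟨⟨a, b⟩, d⟩ e
    refine ⟨a, Lo.eq_of_gen (Lo.hol_cont b) ((Lo.hol_cont (R.lb.holo _ _ _ a (hi q))).mul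
      ((Lo.hol_cont (v1 q)).mul (Lo.hol_cont ((ht q).unit hL e).1))) ?_⟩
    filter_upwards [d, v3 q, M.at_pt (M.val_ne (t1 p)) q, M.at_pt (M.val_mul (t q / t p) (t p)) q,
      gen_of_nhds (((R.lb.isOpen _).eventually_mem a).and
        ((R.lb.isOpen _).eventually_mem (hi q)))] with z z1 z2 z3 z4 z5
    rw [div_mul_cancel₀ _ (t1 p)] at z4
    refine mul_right_cancel₀ z3 ?_
    rw [← z1, R.chg _ _ z z5.1 z5.2, z2, z4]
    simp only [Pi.mul_apply, mul_assoc]
  refine map_cl hL hD ht u hc (s := fun y => v (u y) (u y)) (fun y => v2 _)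
    (w := fun x y => v (u x) (u y)) (fun x => (Lo.hol_cont (v1 _)).comp
      (f := fun y => (u y : M.W)) (continuous_subtype_val.comp u.continuous).continuousAt)
    fun x => ?_
  filter_upwards [hφ x, u.continuous.continuousAt.eventually (k (u x))] with y a b
  rw [a, b.2, mul_comm (B.g _ _ _), mul_inv_cancel_right₀ (R.lb.ne_zero _ _ _ b.1 (hi _))]

theorem jac_eq {X : Type} [TopologicalSpace X] [ChartedSpace (Cm 2) X] (e : Chart 2 X) (x : X) :
    P267.FL.jac e x = jacM e (chartAt (Cm 2) x) x := by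
  ext p i
  simp only [P267.FL.jac, P267.FL.jacM, jacM, Matrix.of_apply, P267.FL.dz, P272.K.dz, smul_eq_mul]
  ring

theorem cptW (hF : M.F = univ) : CompactSpace M.W := ⟨hF ▸ M.cpt⟩

theorem niceW (hF : M.F = univ) : Nice M.W :=
  haveI := cptW hF
  ⟨inferInstance, inferInstance, inferInstance⟩

/-- **FRM** -/
theorem frm : FRM := by
  intro L _ _ M hF hM
  have hL := P285N.Ct.loc 2 0 L M hM
  have R := Lb.lbd_can M hL _ _ (Ba.KM_can hM)
  have := cptW hF
  have := niceW hF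
  have ac : ∀ x : M.W, At (chartAt (Cm 2) x) x := fun x => Lo.at_chartAt x
  have hφ : ∀ x : M.W, ∀ᶠ y in 𝓝 x, At (chartAt (Cm 2) x) y ∧
      (SB.K M.W).φ x y = ((jacM (chartAt (Cm 2) x) (chartAt (Cm 2) y) y).det)⁻¹ := fun x =>
    Eventually.mono (chart_source_mem_nhds (Cm 2) x) fun y a =>
      ⟨⟨(ac x).1, a⟩, by rw [SB.K_φ a, jac_eq]⟩
  refine ⟨fun η h h0 => ?_, fun u hu => ?_⟩
  · have S : M.Sec (Bd.can 2 M.W) fun e y => (jacM e (chartAt (Cm 2) y) y).det * η y := by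
      refine .of_forall fun y e he => ⟨?_, fun e' he' => ?_⟩
      · have a : Hol 2 (fun z => η z / (SB.K M.W).φ y z) y := Hol.of_chart (ac y) (h y)
        refine (Lo.hol_mul (R.lb.holo e _ y he (ac y)) a).congr ?_
        filter_upwards [hφ y, (R.lb.isOpen e).eventually_mem he] with z b c
        rw [b.2, div_inv_eq_mul, mul_comm (η z), ← mul_assoc]
        exact congrArg (· * η z) (Lb.jacM_mul c b.1 (ac z))
      · exact (congrArg (· * η y) (Lb.jacM_mul he he' (ac y)).symm).trans (mul_assoc _ _ _)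
    obtain ⟨f, f1, f2⟩ := Lb.lbd_fn M _ _ _ _ R S
    obtain ⟨x, hx⟩ := Function.ne_iff.1 h0
    have f0 := ((Lb.lbd_nz M hL _ _ _ f _ ⟨x, hF ▸ mem_univ x⟩ _ R S f2 (ac x)).1 (by
      simpa only [Lb.jacM_self (ac x), one_mul, Pi.zero_apply] using hx)).1
    exact ⟨f, f0, add_comm (M.div f) _ ▸ FI.div_add_nonneg hL (Ba.KM_dv hM) f1 f0⟩
  · obtain ⟨c, -, hc⟩ := stC1Ex _ _ (SB.K M.W).coc
    rwa [← map_rep hL (Ba.KM_int hM) R (fun x => chartAt (Cm 2) (x : M.W)) (fun x => ac x) u hc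
      fun x => (hφ x).mono fun y a => by simpa only [hu, Bd.can] using a.2]

end Vale.Agent.P287D.K3
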