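import Vale.Agent.P287D.K3.St
import Vale.Agent.P287D.I.Hi

/-!
# P287D, the K3 end: the numerical data in terms of divisors on one model
-/

open Vale.Agent.P277Z
open Vale.Agent.P287D.I (i2)

noncomputable section

namespace Vale.Agent.P287D.K3

variable {L : Type} [Field L] [Algebra ℂ L]

/-- the data on a smooth projective model: `κ` is the effective canonical divisor -/
structure MD (d : ℕ) (M : Mdl 2 0 L) (f : L) (D : P277Z.Div L) : Prop where
  ne : f ≠ 0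
  eff : 0 ≤ Ba.KM M + M.div f
  dv : M.Dv D
  int : IsInt D
  deg : (d : ℝ) ≤ i2 M D D
  pos : 0 < i2 M D D
  nn : ∀ P, M.Pr P → 0 ≤ i2 M (Finsupp.single P 1) D
  nul : ∀ P, M.Pr P → (i2 M (Finsupp.single P 1) D = 0 ↔ (Ba.KM M + M.div f) P ≠ 0)
  crv : ∀ P, M.Pr P → (Ba.KM M + M.div f) P = 0 → ∃ (m : ℕ) (β : P277Z.Div L), 0 < m ∧ M.Dv β ∧
    IsInt β ∧ (∀ Q, (Ba.KM M + M.div f) Q = 0 → β Q = (Finsupp.single P 1 : P277Z.Div L) Q) ∧
      ∀ Q, M.Pr Q → i2 M (Finsupp.single Q 1) β = m * i2 M (Finsupp.single Q 1) D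

/-- **UDM**: the same data in terms of b-divisors -/
def UDM : Prop := ∀ (d : ℕ) (L : Type) [Field L] [Algebra ℂ L] (M : Mdl 2 0 L) (f : L)
  (D : P277Z.Div L), M.Proj → MD d M f D →
    ∃ Λ Γ : BD L, UD d Λ Γ f (Ba.bar M D)

end Vale.Agent.P287D.K3
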