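import Vale.Agent.P287Q.Sf.Num
import Vale.Agent.P287D.Nc.Lat

/-!
# P287D, the K3 end: the lattice of a blown up surface of Picard number one
-/

set_option linter.unusedSimpArgs false

namespace Vale.Agent.P287D.K3

open Finset Module Function
open Vale.Agent.P287Q.Sf

variable {L : Type} [AddCommGroup L]

theorem contract2 {ι : Type*} [DecidableEq ι] (B : LinearMap.BilinForm ℤ L)
    (hB : ∀ x y, B x y = B y x) (a : ι → ℕ) (n : ℕ) :
    ∀ (s : Finset ι) (C : ι → L), s.card = n →
      (∀ i ∈ s, ∀ j ∈ s, i ≠ j → 0 ≤ B (C i) (C j)) →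
      (∀ i ∈ s, -2 ≤ B (C i) (C i) + B (∑ j ∈ s, (a j : ℤ) • C j) (C i)) →
      ∃ (m : ℕ) (e : Fin m → L), NegFrame B e ∧
        0 ≤ B (∑ j ∈ s, (a j : ℤ) • C j) (∑ j ∈ s, (a j : ℤ) • C j) + m ∧
        (∀ k, e k ∈ AddSubmonoid.closure (C '' (s : Set ι))) ∧
        (∀ k, B (e k) (∑ j ∈ s, (a j : ℤ) • C j) = -1) ∧
        ∀ j ∈ s, prj B e (C j) ∈ AddSubmonoid.closure (C '' (s : Set ι)) := by
  induction n with
  | zero =>
    intro s C hs _ _
    obtain rfl := Finset.card_eq_zero.1 hs
    exact ⟨0, Fin.elim0, fun i => i.elim0, by simp, fun i => i.elim0, fun i => i.elim0, by simp⟩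
  | succ n ih =>
    intro s C hs h1 h2
    set K := ∑ j ∈ s, (a j : ℤ) • C j with hK
    by_cases h0 : 0 ≤ B K K
    · exact ⟨0, Fin.elim0, fun i => i.elim0, by simpa using h0, fun i => i.elim0, fun i => i.elim0,
        fun j hj => by
          rw [prj_apply, Finset.sum_of_isEmpty, add_zero]
          exact AddSubmonoid.subset_closure ⟨j, hj, rfl⟩⟩
    obtain ⟨i, hi, hneg⟩ : ∃ i ∈ s, B K (C i) < 0 := by
      by_contra hc
      push Not at hc
      refine h0 ?_
      have : B K K = ∑ j ∈ s, (a j : ℤ) * B K (C j) := by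
        conv_lhs => rw [show B K K = B K (∑ j ∈ s, (a j : ℤ) • C j) from rfl]
        rw [map_sum]
        simp only [map_smul, smul_eq_mul]
      rw [this]
      exact Finset.sum_nonneg fun j hj => mul_nonneg (Nat.cast_nonneg _) (hc j hj)
    have hsp : K = (a i : ℤ) • C i + ∑ j ∈ s.erase i, (a j : ℤ) • C j :=
      (Finset.add_sum_erase s (fun j => (a j : ℤ) • C j) hi).symm
    have hr : 0 ≤ B (∑ j ∈ s.erase i, (a j : ℤ) • C j) (C i) := by
      rw [map_sum, LinearMap.sum_apply]
      refine Finset.sum_nonneg fun j hj => ?_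
      rw [map_smul, LinearMap.smul_apply, smul_eq_mul]
      exact mul_nonneg (Nat.cast_nonneg _)
        (h1 j (Finset.mem_of_mem_erase hj) i hi (Finset.ne_of_mem_erase hj))
    have hKE : B K (C i) = a i * B (C i) (C i) + B (∑ j ∈ s.erase i, (a j : ℤ) • C j) (C i) := by
      conv_lhs => rw [hsp]
      rw [map_add, LinearMap.add_apply, map_smul, LinearMap.smul_apply, smul_eq_mul]
    have hEE : B (C i) (C i) < 0 := by
      by_contra hc
      have := mul_nonneg (Nat.cast_nonneg (a i) : (0 : ℤ) ≤ a i) (not_lt.1 hc)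
      omega
    have h3 := h2 i hi
    have e1 : B (C i) (C i) = -1 := by omega
    have e2 : B K (C i) = -1 := by omega
    set E := C i with hE
    let C' : ι → L := fun j => C j + B (C j) E • E
    have o1 : ∀ j, B (C' j) E = 0 := fun j => by
      simp only [C', map_add, LinearMap.add_apply, map_smul, LinearMap.smul_apply, smul_eq_mul, e1]
      ring
    have p1 : ∀ j k, B (C' j) (C' k) = B (C j) (C k) + B (C j) E * B (C k) E := fun j k => by
      simp only [C', map_add, LinearMap.add_apply, map_smul, LinearMap.smul_apply, smul_eq_mul, e1,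
        hB E (C j), hB E (C k)]
      ring
    have hK' : ∑ j ∈ s.erase i, (a j : ℤ) • C' j = K - E := by
      have q : ∑ j ∈ s.erase i, (a j : ℤ) • C' j =
          ∑ j ∈ s.erase i, (a j : ℤ) • C j + B (∑ j ∈ s.erase i, (a j : ℤ) • C j) E • E := by
        rw [map_sum, LinearMap.sum_apply, Finset.sum_smul, ← Finset.sum_add_distrib]
        refine Finset.sum_congr rfl fun j _ => ?_
        simp only [C', smul_add, map_smul, LinearMap.smul_apply, smul_eq_mul, mul_smul]
      have q2 : B (∑ j ∈ s.erase i, (a j : ℤ) • C j) E = a i - 1 := by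
        rw [e1, e2] at hKE
        omega
      rw [q, q2]
      conv_rhs => rw [hsp]
      module
    obtain ⟨m, e, f1, f2, f3, f4, f5⟩ := ih (s.erase i) C'
      (by rw [Finset.card_erase_of_mem hi, hs]; rfl)
      (fun j hj k hk hjk => by
        have hj' := Finset.mem_of_mem_erase hj
        have hk' := Finset.mem_of_mem_erase hk
        rw [p1]
        exact add_nonneg (h1 j hj' k hk' hjk)
          (mul_nonneg (h1 j hj' i hi (Finset.ne_of_mem_erase hj))
            (h1 k hk' i hi (Finset.ne_of_mem_erase hk))))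
      (fun j hj => by
        have hj' := Finset.mem_of_mem_erase hj
        have t1 := h2 j hj'
        have t2 : B (K - E) (C' j) = B K (C j) - B (C j) E := by
          simp only [C', map_add, map_sub, LinearMap.sub_apply, map_smul, smul_eq_mul, e1, e2,
            hB E (C j)]
          ring
        rw [hK', p1, t2]
        nlinarith [mul_self_nonneg (2 * B (C j) E - 1)])
    have hEs : E ∈ AddSubmonoid.closure (C '' (s : Set ι)) := AddSubmonoid.subset_closure ⟨i, hi, rfl⟩
    have hsub : AddSubmonoid.closure (C' '' ((s.erase i : Finset ι) : Set ι)) ≤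
        AddSubmonoid.closure (C '' (s : Set ι)) ⊓ (LinearMap.ker (B E)).toAddSubmonoid := by
      rw [AddSubmonoid.closure_le]
      rintro _ ⟨j, hj, rfl⟩
      have hj' := Finset.mem_of_mem_erase hj
      refine ⟨add_mem (AddSubmonoid.subset_closure ⟨j, hj', rfl⟩) ?_, (hB _ _).trans (o1 j)⟩
      obtain ⟨c, hc⟩ := Int.eq_ofNat_of_zero_le (h1 j hj' i hi (Finset.ne_of_mem_erase hj))
      rw [show B (C j) E = c from hc, natCast_zsmul]
      exact nsmul_mem hEs c
    have o2 : ∀ k, B E (e k) = 0 := fun k => (hsub (f3 k)).2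
    have o3 : ∀ k, B (e k) E = 0 := fun k => (hB _ _).trans (o2 k)
    rw [hK'] at f2 f4
    refine ⟨m + 1, Fin.cons E e, fun k l => ?_, ?_, fun k => ?_, fun k => ?_, fun j hj => ?_⟩
    · refine Fin.cases ?_ (fun k => ?_) k <;> refine Fin.cases ?_ (fun l => ?_) l
      · simpa using e1
      · simpa [(Fin.succ_ne_zero l).symm] using o2 l
      · simpa [hB (e k) E] using o2 k
      · simpa using f1 k l
    · have : B (K - E) (K - E) = B K K + 1 := by
        simp only [map_sub, LinearMap.sub_apply, e1, e2, hB E K]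
        ring
      push_cast
      omega
    · refine Fin.cases ?_ (fun k => ?_) k
      · exact hEs
      · exact (hsub (f3 k)).1
    · refine Fin.cases ?_ (fun k => ?_) k
      · exact (hB _ _).trans e2
      · simpa [o3] using f4 k
    · have q : prj B (Fin.cons E e : Fin (m + 1) → L) (C j) = prj B e (C' j) := by
        simp [prj_apply, Fin.sum_univ_succ, C', o3, hB E, add_assoc]
      rw [q]
      by_cases hji : j = i
      · rw [show C' j = 0 by simp [C', hji, ← hE, e1], map_zero]
        exact zero_mem _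
      · exact (hsub (f5 j (Finset.mem_erase.2 ⟨hji, hj⟩))).1

/-- a unimodular lattice with a saturated sublattice whose complement has rank `21` and
discriminant `± d` -/
structure Lt (d : ℕ) (B : LinearMap.BilinForm ℤ L) (N T : Submodule ℤ L) : Prop where
  symm : ∀ x y, B x y = B y x
  uni : Bijective B
  sat : ∀ (k : ℤ) x, k ≠ 0 → k • x ∈ N → x ∈ N
  mem : ∀ x, x ∈ T ↔ ∀ y ∈ N, B y x = 0
  dsc : ∃ b : Basis (Fin 21) ℤ T, (Matrix.of fun i j => B (b i) (b j)).det.natAbs = d

theorem gram_eq {κ : Type} [Fintype κ] [DecidableEq κ] (B : LinearMap.BilinForm ℤ L)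
    {T : Submodule ℤ L} (b c : Basis κ ℤ T) : (Matrix.of fun i j => B (b i) (b j)).det.natAbs =
      (Matrix.of fun i j => B (c i) (c j)).det.natAbs := by
  have h := congrArg (fun A => (Matrix.det A).natAbs)
    (LinearMap.BilinForm.toMatrix_mul_basis_toMatrix b c (B.restrict T))
  have u : (b.toMatrix c).det.natAbs = 1 :=
    Int.isUnit_iff_natAbs_eq.1 (Matrix.isUnit_det_of_right_inverse (b.toMatrix_mul_toMatrix_flip c))
  simp only [Matrix.det_mul, Matrix.det_transpose, Int.natAbs_mul, u, one_mul, mul_one] at h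
  have e : ∀ b : Basis κ ℤ T, LinearMap.BilinForm.toMatrix b (B.restrict T) =
      Matrix.of fun i j => B (b i) (b j) := fun b => by
    ext i j
    simp [LinearMap.BilinForm.toMatrix_apply]
  rwa [e, e] at h

/-- the output -/
structure Out (d : ℕ) (B : LinearMap.BilinForm ℤ L) (N : Submodule ℤ L) {ι : Type} (C : ι → L)
    (k : L) {m : ℕ} (e : Fin m → L) (h : L) : Prop where
  fr : NegFrame B e
  eff : ∀ i, e i ∈ AddSubmonoid.closure (Set.range C)
  mem : h ∈ N
  perp : ∀ i, B (e i) h = 0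
  sq : B h h = d
  pos : 0 < B h k
  one : ∀ x ∈ N, ∃ c : ℤ, prj B e x = c • h
  nul : ∀ j, prj B e (C j) = 0
  prim : ∃ x, B x h = 1

theorem k3 [Module.Free ℤ L] [Module.Finite ℤ L] {d : ℕ} (hd : 0 < d)
    {B : LinearMap.BilinForm ℤ L} {N T : Submodule ℤ L} (H : Lt d B N T) {ι : Type} [Fintype ι]
    (a : ι → ℕ) (ha : ∀ j, 0 < a j) (C : ι → L) (hC : ∀ j, C j ∈ N) {K : L}
    (hK : K = ∑ j, (a j : ℤ) • C j) (h1 : ∀ i j, i ≠ j → 0 ≤ B (C i) (C j))
    (h2 : ∀ i, -2 ≤ B (C i) (C i) + B K (C i)) (noe : finrank ℤ L + B K K ≤ 22)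
    {k : L} (hk : k ∈ N) (k1 : 0 < B k k) (k2 : ∀ j, 0 ≤ B k (C j)) :
    ∃ (m : ℕ) (e : Fin m → L) (h : L), Out d B N C k e h := by
  classical
  have hB := H.symm
  obtain ⟨b, hb⟩ := H.dsc
  obtain ⟨m, e, f1, f2, f3, f4, f5⟩ := contract2 B hB a _ Finset.univ C rfl
    (fun i _ j _ => h1 i j) fun i _ => hK ▸ h2 i
  rw [← hK] at f2 f4
  rw [Finset.coe_univ, Set.image_univ] at f3 f5
  have cN : ∀ x ∈ AddSubmonoid.closure (Set.range C), x ∈ N ∧ 0 ≤ B k x := fun x hx => by
    induction hx using AddSubmonoid.closure_induction with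
    | mem _ h => obtain ⟨j, rfl⟩ := h; exact ⟨hC j, k2 j⟩
    | zero => simp
    | add x y _ _ p q => exact ⟨add_mem p.1 q.1, map_add (B k) x y ▸ add_nonneg p.2 q.2⟩
  have eN : ∀ i, e i ∈ N := fun i => (cN _ (f3 i)).1
  have pN : ∀ x ∈ N, prj B e x ∈ perp B e ⊓ N := fun x hx => ⟨f1.prj_mem x, by
    rw [prj_apply]
    exact add_mem hx (Submodule.sum_mem _ fun i _ => Submodule.smul_mem _ _ (eN i))⟩
  have kp : 0 < B (prj B e k) (prj B e k) := by
    rw [f1.prj_pair hB]
    exact add_pos_of_pos_of_nonneg k1 (Finset.sum_nonneg fun i _ => mul_self_nonneg _)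
  have dis : T ⊓ (perp B e ⊓ N) = ⊥ := eq_bot_iff.2 fun x hx => by
    have h0 : (Matrix.of fun i j => B (b i) (b j)).det ≠ 0 := fun z => by
      rw [z] at hb
      exact hd.ne (by simpa using hb)
    have h3 := Matrix.eq_zero_of_vecMul_eq_zero h0 (v := b.repr ⟨x, hx.1⟩) (funext fun j => by
      have := ((H.mem _).1 (b j).2) x hx.2.2
      have q := congrArg (fun y : T => B y (b j)) (b.sum_repr ⟨x, hx.1⟩)
      simp only [Submodule.coe_sum, map_sum, LinearMap.sum_apply] at q
      simpa [Matrix.vecMul, dotProduct, this] using q)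
    exact congrArg Subtype.val (b.repr.map_eq_zero_iff.1 (DFunLike.coe_injective h3))
  have r1 : finrank ℤ (T ⊔ (perp B e ⊓ N) : Submodule ℤ L) =
      21 + finrank ℤ (perp B e ⊓ N : Submodule ℤ L) := by
    have := Submodule.rank_sup_add_rank_inf_eq T (perp B e ⊓ N)
    rw [dis, rank_bot, add_zero, ← finrank_eq_rank, ← finrank_eq_rank, ← finrank_eq_rank,
      finrank_eq_card_basis b, Fintype.card_fin] at this
    exact_mod_cast this
  have r2 : finrank ℤ (T ⊔ (perp B e ⊓ N) : Submodule ℤ L) ≤ finrank ℤ (perp B e) :=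
    Submodule.finrank_mono (sup_le (fun x hx => mem_perp.2 fun i => (H.mem x).1 hx _ (eN i))
      inf_le_left)
  have r3 := f1.finrank_perp
  have r4 : finrank ℤ (perp B e ⊓ N : Submodule ℤ L) ≠ 0 := fun z => by
    have := (Submodule.finrank_eq_zero.1 z).le (pN k hk)
    rw [Submodule.mem_bot] at this
    simp [this] at kp
  have r5 : finrank ℤ (perp B e ⊓ N : Submodule ℤ L) = 1 := by omega
  obtain ⟨h, hh, one, hp⟩ : ∃ h ∈ perp B e ⊓ N, (∀ x ∈ perp B e ⊓ N, ∃ c : ℤ, x = c • h) ∧
      0 < B h k := by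
    let β := finBasisOfFinrankEq ℤ _ r5
    have o : ∀ x ∈ perp B e ⊓ N, ∃ c : ℤ, x = c • (β 0 : L) := fun x hx =>
      ⟨β.repr ⟨x, hx⟩ 0, by simpa using (congrArg Subtype.val (β.sum_repr ⟨x, hx⟩)).symm⟩
    obtain ⟨c, hc⟩ := o _ (pN k hk)
    have h3 : B (β 0) k ≠ 0 := fun z => by
      rw [hB, prj_pair hB _ (f1.prj_mem k), hB, hc, map_smul, LinearMap.smul_apply, z] at kp
      simp at kp
    rcases h3.lt_or_gt with z | z
    · exact ⟨-β 0, neg_mem (β 0).2, fun x hx => let ⟨c, q⟩ := o x hx; ⟨-c, by simpa using q⟩,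
        by simpa using z⟩
    · exact ⟨_, (β 0).2, o, z⟩
  have he := mem_perp.1 hh.1
  have hpos : 0 < B h h := by
    obtain ⟨c, hc⟩ := one _ (pN k hk)
    simp only [hc, map_smul, LinearMap.smul_apply, smul_eq_mul, ← mul_assoc] at kp
    exact (pos_iff_pos_of_mul_pos kp).1 (lt_of_le_of_ne (mul_self_nonneg c) fun z => by
      simp [← z] at kp)
  let v : Option (Fin m) → L := fun o => o.elim h e
  have sp : Submodule.span ℤ (Set.range v) = N := le_antisymm (Submodule.span_le.2 (by
      rintro _ ⟨_ | i, rfl⟩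
      exacts [hh.2, eN i])) fun x hx => by
    obtain ⟨c, hc⟩ := one _ (pN x hx)
    rw [eq_sub_of_add_eq ((prj_apply B e x).symm.trans hc)]
    exact sub_mem (Submodule.smul_mem _ _ (Submodule.subset_span ⟨none, rfl⟩))
      (Submodule.sum_mem _ fun i _ => Submodule.smul_mem _ _ (Submodule.subset_span ⟨some i, rfl⟩))
  have gr : (Matrix.of fun i j => B (v i) (v j)) =
      Matrix.diagonal fun o : Option (Fin m) => o.elim (B h h) fun _ => -1 := by
    ext (_ | i) (_ | j)
    · simp [v]
    · simpa [v, hB h] using he j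
    · simpa [v] using he i
    · simpa [v, Matrix.diagonal_apply] using f1 i j
  have gd : (Matrix.of fun i j => B (v i) (v j)).det.natAbs = (B h h).natAbs := by
    simp [gr, Fintype.prod_option, Int.natAbs_mul, Int.natAbs_pow]
  have li : LinearIndependent ℤ v := Fintype.linearIndependent_iff.2 fun c hc => by
    have h0 : (Matrix.of fun i j => B (v i) (v j)).det ≠ 0 := fun z => by
      rw [z] at gd
      omega
    refine congrFun (Matrix.eq_zero_of_vecMul_eq_zero h0 (funext fun j => ?_))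
    simpa [Matrix.vecMul, dotProduct, LinearMap.sum_apply] using congrArg (B · (v j)) hc
  obtain ⟨β, hβ⟩ := Nc.exists_ext li (sp ▸ H.sat) (m := 21) (by
    rw [Fintype.card_option, Fintype.card_fin]; omega)
  obtain ⟨b', hb'⟩ := Nc.disc_perp B hB H.uni β T fun x => (H.mem x).trans
    ⟨fun q i => q _ (hβ i ▸ sp ▸ Submodule.subset_span ⟨i, rfl⟩), fun q y hy => by
      have : Submodule.span ℤ (Set.range v) ≤ LinearMap.ker (B x) := Submodule.span_le.2 (by
        rintro _ ⟨i, rfl⟩
        exact (hB _ _).trans (hβ i ▸ q i))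
      exact (hB _ _).trans (this (sp ▸ hy))⟩
  simp only [hβ] at hb'
  have sq : B h h = d := by
    rw [gd, ← gram_eq B b b', hb] at hb'
    omega
  have K0 : prj B e K = 0 := by
    obtain ⟨c, hc⟩ := one _ (pN K (hK ▸ Submodule.sum_mem _ fun j _ => Submodule.smul_mem _ _ (hC j)))
    have q := f1.prj_pair hB K K
    simp only [f4, hc, map_smul, LinearMap.smul_apply, smul_eq_mul, ← mul_assoc] at q
    have q' : c * c * B h h = 0 := by
      rw [q]
      simp
      omega
    rw [hc, mul_self_eq_zero.1 ((mul_eq_zero.1 q').resolve_right hpos.ne'), zero_smul]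
  refine ⟨m, e, h, f1, f3, hh.2, he, sq, hp, fun x hx => one _ (pN x hx), fun j => ?_, ?_⟩
  · have q : ∑ j, (a j : ℤ) * B k (prj B e (C j)) = 0 := by
      have := congrArg (B k) K0
      simpa [hK, map_sum] using this
    have q1 := (Finset.sum_eq_zero_iff_of_nonneg fun j _ => mul_nonneg (Nat.cast_nonneg _)
      (cN _ (f5 j (Finset.mem_univ j))).2).1 q j (Finset.mem_univ j)
    obtain ⟨c, hc⟩ := one _ (pN _ (hC j))
    rw [hc, map_smul, smul_eq_mul, hB k, mul_eq_zero, mul_eq_zero] at q1
    have := ha j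
    rw [hc, show c = 0 by omega, zero_smul]
  · obtain ⟨x, hx⟩ := H.uni.2 (β.coord (.inl none))
    exact ⟨x, by rw [hx, show h = β (.inl none) from (hβ none).symm]; simp⟩

end Vale.Agent.P287D.K3
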