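import Vale.Agent.P287D.K3.Md
import Vale.Agent.P287D.K3.Num
import Vale.Agent.P287D.I.Rs
import Vale.Agent.P287D.Ba.Sec

/-!
# P287D, the K3 end: the divisor whose class is orthogonal to the canonical curves
-/

set_option linter.all false

open Set Module
open Vale.Agent.P297 (Place)
open Vale.Agent.P277Z Vale.Agent.P277Z.FI Vale.Agent.P277Z.F5 Vale.Agent.P277Z.F5.Dg
open Vale.Agent.P287D.Ba Vale.Agent.P287D.I Vale.Agent.P287Q.Sf

noncomputable section

namespace Vale.Agent.P287D.K3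

theorem gen {G Λ : Type} [AddCommGroup G] [AddCommGroup Λ] (p : G →+ Λ) (h : Λ)
    (hp : ∃ g, p g ≠ 0) (one : ∀ g, ∃ c : ℤ, p g = c • h) :
    ∃ (t : ℤ) (g : G), 0 < t ∧ p g = t • h ∧ ∀ g', ∃ c : ℤ, p g' = (c * t) • h := by
  obtain ⟨s, hs⟩ := Int.subgroup_cyclic (p.range.comap (zmultiplesHom Λ h))
  have k : ∀ c : ℤ, (∃ g, p g = c • h) ↔ s ∣ c := fun c => by
    have := SetLike.ext_iff.1 hs c
    rw [AddSubgroup.mem_closure_singleton] at this
    exact this.trans ⟨fun ⟨n, e⟩ => ⟨n, by rw [← e, smul_eq_mul, mul_comm]⟩,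
      fun ⟨n, e⟩ => ⟨n, by rw [e, smul_eq_mul, mul_comm]⟩⟩
  obtain ⟨g, hg⟩ := (k |s|).2 (self_dvd_abs s)
  have k2 : ∀ g', ∃ c : ℤ, p g' = (c * |s|) • h := fun g' => by
    obtain ⟨c, hc⟩ := one g'
    obtain ⟨n, e⟩ := (abs_dvd s c).2 ((k c).1 ⟨g', hc⟩)
    exact ⟨n, by rw [hc, e, mul_comm]⟩
  refine ⟨|s|, g, abs_pos.2 fun z => ?_, hg, k2⟩
  obtain ⟨g', hg'⟩ := hp
  obtain ⟨c, hc⟩ := k2 g'
  simp [z, hg'] at hc

variable {L : Type} [Field L] [Algebra ℂ L] {M : Mdl 2 0 L} {Λ : Type} [AddCommGroup Λ]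

/-- the output on the lattice side -/
structure LS (d : ℕ) (B : LinearMap.BilinForm ℤ Λ) (N : Submodule ℤ Λ) (c : Dg.Gd M →+ Λ) (D : Dg.Gd M)
    (h : Λ) (t : ℤ) : Prop where
  pos : 0 < t
  cls : c D = t • h
  sq : B h h = d
  dvd : ∀ x ∈ N, ∃ k : ℤ, B x h = k * d
  prim : ∃ x, B x h = 1
  num : ∀ E : Dg.Gd M, (∀ G : Dg.Gd M, i2 M E G = 0) → c E = 0

theorem md [Module.Free ℤ Λ] [Module.Finite ℤ Λ] (hM : M.Proj) {d : ℕ} (hd : 0 < d)
    {B : LinearMap.BilinForm ℤ Λ} {N T : Submodule ℤ Λ} (H : Lt d B N T) (c : Dg.Gd M →+ Λ)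
    (cN : ∀ D, c D ∈ N) (cB : ∀ D E : Dg.Gd M, (B (c D) (c E) : ℝ) = i2 M D E) {f : L} (hf : f ≠ 0)
    (hκ : 0 ≤ KM M + M.div f) (noe : (finrank ℤ Λ : ℝ) + i2 M (KM M) (KM M) ≤ 22) :
    ∃ (D : Dg.Gd M) (h : Λ) (t : ℤ), MD d M f D ∧ LS d B N c D h t := by
  have hP := pc hM
  have hB := H.symm
  have kc := (KM_isCan hM).add_div (hloc hM) hf
  have kg : KM M + M.div f ∈ Dg.Gd M := add_mem ⟨KM_dv hM, KM_int hM⟩ (gd_div (hloc hM) f)
  have kn : i2 M (KM M + M.div f) (KM M + M.div f) = i2 M (KM M) (KM M) := by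
    have e : KM M + M.div f - KM M ∈ PrR M := by simpa using div_mem_prR hf
    rw [hP.q2_eqv _ e, hP.q2_eqv' _ _ e]
  obtain ⟨κ, hk⟩ : ∃ κ, κ = KM M + M.div f := ⟨_, rfl⟩
  rw [← kn] at noe
  rw [← hk] at kc kg hκ noe
  obtain ⟨A, hA⟩ := hP.pol
  let s : ∀ P, M.Pr P → Dg.Gd M := fun P h => ⟨_, gd_single h⟩
  let k : Dg.Gd M := ⟨A, hA.dv, hA.int⟩
  have sk : ∀ P h, 0 < B (c (s P h)) (c k) := fun P h => by
    have := prime_pos hP h (a := ![A]) (Fin.cases ⟨hA.dv, hA.amp⟩ fun i => i.elim0)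
    exact_mod_cast (cB (s P h) k).symm ▸ this
  have fl : ∀ P, ((⌊κ P⌋₊ : ℕ) : ℝ) = κ P := fun P => by
    obtain ⟨n, e⟩ := kg.2 P
    have h0 : (0 : ℤ) ≤ n := by exact_mod_cast (e ▸ hκ P : (0 : ℝ) ≤ n)
    lift n to ℕ using h0
    rw [e, Int.cast_natCast, Nat.floor_natCast]
  obtain ⟨m, e, h, o⟩ := k3 hd H (ι := κ.support) (fun j => ⌊κ j⌋₊)
    (fun j => Nat.pos_of_ne_zero fun z => Finsupp.mem_support_iff.1 j.2 (by
      rw [← fl, z, Nat.cast_zero])) (fun j => c (s j (kg.1 j j.2))) (fun j => cN _)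
    (K := c ⟨κ, kg⟩) (by
      simp only [← map_zsmul, ← map_sum]
      refine congrArg c (Subtype.ext ?_)
      simp only [AddSubgroup.val_finsetSum, AddSubgroupClass.coe_zsmul, s, natCast_zsmul,
        AddSubmonoidClass.coe_nsmul, ← Nat.cast_smul_eq_nsmul ℝ, fl, Finsupp.smul_single_one]
      rw [Finset.sum_coe_sort κ.support fun j => Finsupp.single j (κ j)]
      exact (Finsupp.sum_single κ).symm)
    (fun i j hij => by
      have := hP.q2_prime (a := ![]) (P := i) (G := Finsupp.single j 1) (fun i => i.elim0)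
        (Finsupp.single_nonneg.2 zero_le_one) (Finsupp.single_eq_of_ne fun z => hij (Subtype.ext z))
      exact_mod_cast this.trans_eq (cB (s i (kg.1 i i.2)) (s j (kg.1 j j.2))).symm)
    (fun i => by
      have := hP.genus_ge kc (kg.1 i i.2)
      rw [map_add, LinearMap.add_apply, add_comm, ← cB (s i (kg.1 i i.2)) (s i (kg.1 i i.2)),
        ← cB ⟨κ, kg⟩ (s i (kg.1 i i.2))] at this
      exact_mod_cast this)
    (by rw [← cB ⟨κ, kg⟩ ⟨κ, kg⟩] at noe; exact_mod_cast noe) (cN k)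
    (by exact_mod_cast (cB k k).symm ▸ hP.i2_amp hA.dv hA.amp hA.dv hA.amp)
    fun j => (sk j (kg.1 j j.2)).le.trans_eq (hB _ _)
  have lf : ∀ x ∈ AddSubmonoid.closure (range fun j : κ.support => c (s j (kg.1 j j.2))),
      ∃ E : Dg.Gd M, c E = x ∧ 0 ≤ E.1 ∧ (∀ Q, κ Q = 0 → E.1 Q = 0) ∧ 0 ≤ B x (c k) := fun x hx => by
    induction hx using AddSubmonoid.closure_induction with
    | mem _ h =>
      obtain ⟨j, rfl⟩ := h
      exact ⟨s j (kg.1 j j.2), rfl, Finsupp.single_nonneg.2 zero_le_one, fun Q z => Finsupp.single_eq_of_ne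
        fun y => Finsupp.mem_support_iff.1 j.2 (y ▸ z), (sk j (kg.1 j j.2)).le⟩
    | zero => exact ⟨0, map_zero c, le_rfl, fun _ _ => rfl, by simp⟩
    | add x y _ _ p q =>
      obtain ⟨E, p1, p2, p3, p4⟩ := p
      obtain ⟨F, q1, q2, q3, q4⟩ := q
      exact ⟨E + F, by rw [map_add, p1, q1], add_nonneg p2 q2, fun Q z => by
        rw [AddSubgroup.coe_add, Finsupp.add_apply, p3 Q z, q3 Q z, add_zero],
        by rw [map_add]; exact add_nonneg p4 q4⟩
  choose E e1 e2 e3 e4 using fun i => lf _ (o.eff i)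
  let π : Dg.Gd M → Dg.Gd M := fun G => G + ∑ i, B (e i) (c G) • E i
  have cπ : ∀ G, c (π G) = prj B e (c G) := fun G => by
    simp only [π, prj_apply, map_add, map_sum, map_zsmul, e1]
  have hp := mem_perp.2 o.perp
  obtain ⟨t, G, t0, hG, al⟩ := gen ((prj B e).toAddMonoidHom.comp c) h
    ⟨k, fun z => o.pos.ne' (by
      rw [hB, ← prj_pair hB _ hp, show prj B e (c k) = 0 from z, map_zero, LinearMap.zero_apply])⟩
    fun g => o.one _ (cN g)
  have cD : c (π G) = t • h := (cπ G).trans hG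
  have iD : ∀ (F : Dg.Gd M) (n : ℤ), prj B e (c F) = n • h → B (c F) h = n * d := fun F n z => by
    rw [← prj_pair hB _ hp, z, map_smul, LinearMap.smul_apply, o.sq, smul_eq_mul]
  have d0 : (0 : ℤ) < d := by exact_mod_cast hd
  have off : ∀ P hp, κ P = 0 → ∃ n : ℤ, 0 < n ∧ prj B e (c (s P hp)) = (n * t) • h :=
    fun P hp z => by
      obtain ⟨n, hn⟩ := al (s P hp)
      change prj B e (c (s P hp)) = _ at hn
      have : 0 < B (prj B e (c (s P hp))) (c k) := by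
        rw [prj_apply, map_add, LinearMap.add_apply, map_sum, LinearMap.sum_apply]
        refine add_pos_of_pos_of_nonneg (sk P hp) (Finset.sum_nonneg fun i _ => ?_)
        rw [map_smul, LinearMap.smul_apply]
        refine mul_nonneg ?_ (e4 i)
        have := hP.q2_prime (a := ![]) (fun i => i.elim0) (e2 i) (e3 i P z)
        rw [hB, ← e1]
        exact_mod_cast (cB (s P hp) (E i)).symm ▸ this
      rw [hn, map_smul, LinearMap.smul_apply, smul_eq_mul, mul_assoc] at this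
      exact ⟨n, (pos_iff_pos_of_mul_pos this).2 (mul_pos t0 o.pos), hn⟩
  have pD : ∀ P hp, (κ P ≠ 0 → B (c (s P hp)) (c (π G)) = 0) ∧
      (κ P = 0 → 0 < B (c (s P hp)) (c (π G))) := fun P hp => by
    rw [cD, map_smul, smul_eq_mul]
    refine ⟨fun z => ?_, fun z => ?_⟩
    · rw [iD _ 0 (by simpa using o.nul ⟨P, Finsupp.mem_support_iff.2 z⟩), zero_mul, mul_zero]
    · obtain ⟨n, n0, hn⟩ := off P hp z
      rw [iD _ _ hn]
      positivity
  have sD : B (c (π G)) (c (π G)) = t * (t * d) := by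
    simp only [cD, map_smul, LinearMap.smul_apply, o.sq, smul_eq_mul]
  refine ⟨π G, h, t, ⟨hf, hk ▸ hκ, (π G).2.1, (π G).2.2, ?_, ?_, fun P hp => ?_, fun P hp => ?_,
    fun P hp z => ?_⟩, t0, cD, o.sq, fun x hx => ?_, o.prim, fun F hF => ?_⟩
  · rw [← cB, sD]
    exact_mod_cast (show (d : ℤ) ≤ t * (t * d) by nlinarith [mul_pos t0 t0])
  · rw [← cB, sD]
    exact_mod_cast mul_pos t0 (mul_pos t0 d0)
  · rw [← cB (s P hp)]
    by_cases z : κ P = 0
    · exact_mod_cast ((pD P hp).2 z).le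
    · exact_mod_cast ((pD P hp).1 z).ge
  · rw [← cB (s P hp), ← hk]
    exact ⟨fun y z => ((pD P hp).2 z).ne' (by exact_mod_cast y),
      fun z => by exact_mod_cast (pD P hp).1 z⟩
  · rw [← hk] at z ⊢
    obtain ⟨n, n0, hn⟩ := off P hp z
    lift n to ℕ using n0.le
    refine ⟨n, π (s P hp), by exact_mod_cast n0, (π _).2.1, (π _).2.2, fun Q y => ?_,
      fun Q hq => ?_⟩
    · simp [π, s, Finsupp.finsetSum_apply, e3 _ Q y]
    · rw [← cB (s Q hq), ← cB (s Q hq), cπ, hn, cD]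
      simp [mul_assoc]
  · obtain ⟨n, hn⟩ := o.one x hx
    exact ⟨n, by rw [← prj_pair hB _ hp, hn, map_smul, LinearMap.smul_apply, o.sq, smul_eq_mul]⟩
  · have z : ∀ F' : Dg.Gd M, B (c F) (c F') = 0 := fun F' => by exact_mod_cast (cB F F').trans (hF F')
    have z1 : prj B e (c F) = c F := by
      rw [prj_apply, Finset.sum_eq_zero fun i _ => by rw [hB, ← e1, z, zero_smul], add_zero]
    obtain ⟨n, hn⟩ := o.one _ (cN F)
    have z2 := z (π G)
    rw [cD, map_smul, iD F n hn, smul_eq_mul] at z2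
    rw [← z1, hn, (mul_eq_zero.1 ((mul_eq_zero.1 z2).resolve_left t0.ne')).resolve_right d0.ne',
      zero_smul]

end Vale.Agent.P287D.K3
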