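import Vale.Agent.P287D.K3.St
import Vale.Agent.P287D.Sh.Neg
import Vale.Agent.P287D.Va.Dsc
import Vale.Agent.P287D.Ba.Hy

/-!
# P287D, the K3 end: the class `H` is semiample
-/

open Set

noncomputable section

namespace Vale.Agent.P287D.K3

open Sf

variable {L : Type} [Field L] [Algebra ℂ L] {d : ℕ} {Λ Γ H γ : BD L} {f : L}

/-- a nef and big class has members which are small at a given place -/
theorem small_rep (h : Nef γ) (hb : Big γ) (P : Pl L) {δ : ℝ} (hδ : 0 < δ) :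
    ∃ G, Rep γ G ∧ G P ≤ δ := by
  obtain ⟨s, hs⟩ := h
  obtain ⟨η, η0, G₀, r₀⟩ := hb s
  have g : (0 : ℝ) ≤ _ := r₀.nonneg P
  obtain ⟨t, t0, t1, ht⟩ : ∃ t : ℝ, 0 < t ∧ t < 1 ∧ t * G₀ P ≤ δ := by
    refine ⟨δ / (δ + G₀ P + 1), by positivity, (div_lt_one (by positivity)).2 (by linarith), ?_⟩
    rw [div_mul_eq_mul_div, div_le_iff₀ (by positivity)]
    nlinarith
  have u : 0 < 1 - t := by linarith
  obtain ⟨G, r, e⟩ := (hs (t * η / (1 - t)) (by positivity)).exists_rep (finite_singleton P)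
  refine ⟨(1 - t) • G + t • G₀, ?_, by simpa [e P rfl] using ht⟩
  have k := (r.smul u.le).add (r₀.smul t0.le)
  rwa [smul_add, smul_smul, mul_div_cancel₀ _ u.ne',
    show (1 - t) • γ + (t * η) • mx s + t • (γ - η • mx s) = γ by module] at k

variable (hN : Sh.NAK) (hZ : ZAR) (R : Rows L) (u : UD d Λ Γ f H)

include R u in
theorem UD.det {P : Pl L} (h : ¬ On 1 Λ P) : dg H P = 0 :=
  (R.det_dsc u.des u.term.smp.car).2 P ((R.nn_smp u.term.smp).zero_of (mt on_iff.2 h))

include R in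
theorem I2_prop {c : ℝ} (hγ : γ ∈ Car L) (hH : H ∈ Car L) (e : ∀ P, dg γ P = c * dg H P)
    {β : BD L} (hβ : β ∈ Car L) : I2 γ β = c * I2 H β := by
  rw [R.symm _ hγ _ hβ, R.symm _ hH _ hβ, ← R.smul_r c (R.isb _ hβ) hH, I2_eq, I2_eq]
  simp only [e, R.smul c H hH]

include hN hZ R u in
/-- the rational classes which are numerically proportional to `H` are semiample -/
theorem UD.smp_of {c : ℝ} (hc : 0 < c) (q : CarQ γ) (hd : Dsc Λ γ)
    (e : ∀ P, dg γ P = c * dg H P) : Smp γ := by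
  have t := u.term
  have hH := CarZ.car u.car
  have nef : Nef γ := hN L u.ff γ q.car fun P => by rw [I2_δ, e]; exact mul_nonneg hc.le (u.nn P)
  have big : Big γ := (big_iff_vol u.ff nef).2 (by
    rw [show vol 2 γ = I2 γ γ from congrArg (I 2 L) (funext fun i => by fin_cases i <;> rfl),
      I2_prop R q.car hH e q.car, R.symm _ hH _ q.car, I2_prop R q.car hH e hH]
    exact mul_pos hc (mul_pos hc u.pos))
  have z : ∀ P, On 1 Λ P → dsc 2 Γ P = 0 := fun P hP => sub_eq_zero.2 (t.hull.2 P hP).symm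
  have rE : Rep Γ (Γ + dv f) := ⟨u.eff, by simpa using dv_mem_Prn f⟩
  obtain ⟨N, C, -, h, -⟩ := hZ 1 L u.ff Unit Λ (fun _ => Γ + γ) (fun _ => Γ) t.smp t.big fun _ =>
    ⟨(CarZ.carQ u.can).add q, t.hull.1.add hd, CarZ.car u.can, fun P => by
      by_cases k : On 1 Λ P
      · rw [z P k]; norm_num
      · linarith [t.pos P k], fun P hP => (z P hP).le, by simpa using nef, by simpa using big⟩
  have l : lc (fun _ : Unit => Γ + γ) 1 = Γ + γ := by simp [lc]
  have zd := h 1 zero_le_one (by rw [l]; exact (rE.eff.psef.add_big big).psef)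
  rw [l] at zd
  have le : N 1 ≤ Γ + dv f := fun P => le_of_forall_pos_le_add fun δ hδ => by
    obtain ⟨G, r, k⟩ := small_rep nef big P hδ
    exact (zd.fix _ (rE.add r) P).trans (add_le_add_right k _)
  have sm : Smp (γ + (Γ + dv f - N 1)) := zd.smp.congr (by
    rw [show γ + (Γ + dv f - N 1) - (Γ + γ - N 1) = dv f by abel]; exact dv_mem_Prn f)
  have cF : Γ + dv f - N 1 ∈ Car L := by simpa using sub_mem sm.car q.car
  have o : ∀ P, (Γ + dv f - N 1) P ≠ 0 → dg H P = 0 := fun P hP => by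
    by_cases k : On 1 Λ P
    · refine (u.nul P k).2 fun c => hP ?_
      have a := le P
      have b : (0 : ℝ) ≤ _ := zd.nn P
      rw [Pi.sub_apply]
      linarith
    · exact u.det R k
  have k := (R.nn_smp sm).I2_nonneg (Z := Γ + dv f - N 1) fun P _ => sub_nonneg.2 (le P)
  rw [R.add_r (R.isb _ cF) q.car cF, I2_zero fun P hP => by rw [e, o P hP, mul_zero],
    zero_add] at k
  rwa [Sh.eq_zero_of R hH cF u.pos o k, add_zero] at sm

/-- **UP** -/
theorem up_of (hN : Sh.NAK) (hZ : ZAR) (hR : Sh.For2 fun L _ _ => Rows L) : UP := by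
  intro d L _ _ Λ Γ f H u
  have R := hR L u.ff
  have hH := CarZ.car u.car
  have e : ∀ P, (cn L 2 + dv f) P = dsc 2 Γ P + (Γ + dv f) P := fun P => by
    simp only [dsc, Pi.add_apply, Pi.sub_apply]; ring
  have z : ∀ P, On 1 Λ P → dsc 2 Γ P = 0 := fun P hP => sub_eq_zero.2 (u.term.hull.2 P hP).symm
  refine ⟨u.ff, u.car, u.smp_of hN hZ R one_pos (CarZ.carQ u.car) u.des (by simp), u.deg, u.ne,
    fun P hP => ?_, fun P hP => ?_, fun P hP => ?_⟩
  · have p := (on_iff.1 hP).ne'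
    have k : On 1 Λ P := by_contra fun k => p (u.det R k)
    rw [e, z P k, zero_add]
    exact by_contra fun c => p ((u.nul P k).2 c)
  · have g : (0 : ℝ) ≤ _ := u.eff P
    rw [e]
    by_cases k : On 1 Λ P
    · have c := (u.nul P k).1 (le_antisymm (not_lt.1 (mt on_iff.2 hP)) (u.nn P))
      obtain ⟨a, ha⟩ := CarZ.int (add_mem u.can (dv_mem_CarZ f)) P
      rw [ha] at c g
      have c' : a ≠ 0 := by exact_mod_cast c
      have g' : 0 ≤ a := by exact_mod_cast g
      rw [z P k, zero_add, ha]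
      exact_mod_cast (show (1 : ℤ) ≤ a by omega)
    · linarith [u.exc P k]
  · obtain ⟨m, β, m0, b1, b2, b3, b4⟩ := u.crv P (on_iff.1 hP)
    have m' : (0 : ℝ) < m := by exact_mod_cast m0
    have s : ∀ r : ℚ, -1 < (r : ℝ) * m → Smp (H + (r : ℝ) • β) := fun r hr =>
      u.smp_of hN hZ R (c := 1 + r * m) (by linarith)
        ((CarZ.carQ u.car).add ((CarZ.carQ b1).qsmul r)) (u.des.add (b2.smul _)) fun Q => by
          rw [R.add_smul hH (CarZ.car b1), b4]; ring
    refine ⟨m, β, m0, b1, ⟨⟨((1 / (2 * m) : ℚ) : ℝ), by positivity, s _ ?_, ?_⟩,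
      fun Q hQ => b3 Q (on_iff.1 hQ)⟩, fun γ hγ => I2_prop R (CarZ.car b1) hH b4 hγ⟩
    · exact lt_of_lt_of_le (by norm_num) (by positivity : (0 : ℝ) ≤ _)
    · have := s (-(1 / (2 * m))) (by push_cast; field_simp; norm_num)
      rwa [Rat.cast_neg, neg_smul, ← sub_eq_add_neg] at this

end Vale.Agent.P287D.K3
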